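import Vale.Agent.P194.Final

namespace Vale.Agent.Results.P194.Counterexample

theorem result : ∃ (K G : Type) (_ : Field K) (_ : Group G) (a b : MonoidAlgebra K G),
    a * b = 1 ∧ b * a ≠ 1 := by
  obtain ⟨G, _, -, a, b, h⟩ := Vale.Agent.P194.final
  exact ⟨ZMod 3, G, inferInstance, inferInstance, a, b, h⟩

end Vale.Agent.Results.P194.Counterexample
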